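import Vale.Agent.P155.U877.Main
import Vale.Agent.P155.U.Iface6

/-!
# P155, block U: the coupling with its locality (`CplLocStmt` from CPL-2 and `LocStmt`)
-/

namespace Vale.Agent.P155.U877

open MeasureTheory Filter Topology TopologicalSpace Vale.Agent.P155.Uq

/-- the product identity which comes out of the coupling theorem -/
def ProdId (Ω : Set ℂ) {X : Type} [MeasurableSpace X] (μ : Measure X) (a a' : X → Sp Ω)
    (Wt : GV Ω →ₗᵢ[ℝ] Lp ℝ 2 μ) : Prop :=
  ∀ (k : ℕ) (K : Set ℂ), IsClosed K → ∀ E E' : Set (Past Ω k), MeasurableSet E →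
    MeasurableSet E' → (∀ p ∈ E, ((p (Fin.last k)).1 : Set ℂ) ⊆ K) →
    (∀ p ∈ E', ((p (Fin.last k)).1 : Set ℂ) ⊆ K) → ∀ Ψ Ψ' : Past Ω k → ℝ, BM Ψ → BM Ψ' →
    ∀ f g : GV Ω, (f : HL) ∈ GV (Ω \ K) → (g : HL) ∈ (GV (Ω \ K))ᗮ →
      ∫ x, ((E.indicator Ψ (past k (a x)) * E'.indicator Ψ' (past k (a' x)) : ℝ) : ℂ) *
          Complex.exp (Complex.I * ((Wt (g + f) : X → ℝ) x : ℝ)) ∂μ =
        Complex.exp (-(‖f‖ ^ 2 / 2 : ℝ)) *
        ∫ x, ((E.indicator Ψ (past k (a x)) * E'.indicator Ψ' (past k (a' x)) : ℝ) : ℂ) *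
          Complex.exp (Complex.I * ((Wt g : X → ℝ) x : ℝ)) ∂μ

theorem exp_cast (t : ℝ) : ((Real.exp (-t / 2) : ℝ) : ℂ) = Complex.exp (-(t / 2 : ℝ)) := by
  rw [Complex.ofReal_exp]
  congr 1
  push_cast
  ring

theorem measurable_past {Ω : Set ℂ} (k : ℕ) : Measurable (past (Ω := Ω) k) := by
  unfold past
  fun_prop

/-- **CplLoc** from the locality of both sides, up to the deduction of `PieceK`. -/
theorem cplLoc_of (hloc : LocStmt)
    (hpiece : ∀ (Ω : Set ℂ) {X : Type} [MeasurableSpace X] (μ : Measure X) (a a' : X → Sp Ω)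
      (Wt : GV Ω →ₗᵢ[ℝ] Lp ℝ 2 μ), IsOpen Ω → Bornology.IsBounded Ω → IsProbabilityMeasure μ →
      Measurable a → Measurable a' → ProdId Ω μ a a' Wt → PieceK Ω μ a a' Wt) :
    CplLocStmt := by
  intro Ω hO hb hne R hR Q Q' hQ hQ'
  obtain ⟨W, hW1, hW2, hW3⟩ := hloc Ω hO hb hne R hR Q hQ
  obtain ⟨W', hW1', hW2', hW3'⟩ := hloc Ω hO hb hne R hR Q' hQ'
  have hpQ : IsProbabilityMeasure Q := hQ.prob
  have hpQ' : IsProbabilityMeasure Q' := hQ'.prob
  have hfact : Fact ((2 : ENNReal) ≠ ⊤) := ⟨by norm_num⟩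
  have hsep : SeparableSpace (GV Ω) := by
    have : SecondCountableTopology HL := inferInstance
    infer_instance
  have hexp : ∀ f : GV Ω, ∫ s, Complex.exp (Complex.I * W f s) ∂Q =
      Real.exp (-‖f‖ ^ 2 / 2) := by
    intro f
    rw [exp_cast]
    exact hW1 f
  have hexp' : ∀ f : GV Ω, ∫ s, Complex.exp (Complex.I * W' f s) ∂Q' =
      Real.exp (-‖f‖ ^ 2 / 2) := by
    intro f
    rw [exp_cast]
    exact hW1' f
  obtain ⟨X, mX, μ, a, a', hμ, ha, ha', hma, hma', hWW, hprod⟩ := cpl2 Q Q' W W' hexp hexp'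
  have hmp : MeasurePreserving a μ Q := ⟨ha, hma⟩
  have hmp' : MeasurePreserving a' μ Q' := ⟨ha', hma'⟩
  set Wt : GV Ω →ₗᵢ[ℝ] Lp ℝ 2 μ :=
    (Lp.compMeasurePreservingₗᵢ ℝ a hmp : Lp ℝ 2 Q →ₗᵢ[ℝ] Lp ℝ 2 μ).comp W with hWt
  have hWt1 : ∀ f, ∀ᵐ x ∂μ, (Wt f : X → ℝ) x = (W f : Sp Ω → ℝ) (a x) := fun f =>
    Lp.coeFn_compMeasurePreserving (W f) hmp
  refine ⟨W, W', X, mX, μ, a, a', Wt, hμ, ha, ha', hma, hma', hWt1, ?_, hW2, hW2', ?_⟩
  · intro f
    filter_upwards [hWt1 f, hWW f] with x h1 h2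
    rw [h1, h2]
  · refine hpiece Ω μ a a' Wt hO hb hμ ha ha' ?_
    intro k K hK E E' hE hE' hEK hEK' Ψ Ψ' hΨ hΨ' f g hf hg
    set V : Submodule ℝ (GV Ω) := (GV (Ω \ K)).comap (GV Ω).subtype with hV
    have hVc : IsClosed (V : Set (GV Ω)) :=
      (Submodule.isClosed_topologicalClosure _).preimage continuous_subtype_val
    have hsub : GV (Ω \ K) ≤ GV Ω := by
      refine Submodule.topologicalClosure_mono (Submodule.span_mono ?_)
      rintro _ ⟨v, hv, rfl⟩
      exact ⟨v, ⟨hv.1, hv.2.1, hv.2.2.trans Set.diff_subset⟩, rfl⟩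
    have hVo : ∀ g : GV Ω, g ∈ Vᗮ ↔ (g : HL) ∈ (GV (Ω \ K))ᗮ := by
      intro g
      rw [Submodule.mem_orthogonal, Submodule.mem_orthogonal]
      constructor
      · intro h u hu
        exact h ⟨u, hsub hu⟩ hu
      · intro h u hu
        exact h (u : HL) hu
    have mE : Measurable (fun s : Sp Ω => E.indicator Ψ (past k s)) :=
      (hΨ.1.indicator hE).comp (measurable_past k)
    have mE' : Measurable (fun s : Sp Ω => E'.indicator Ψ' (past k s)) :=
      (hΨ'.1.indicator hE').comp (measurable_past k)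
    have bE : ∃ C : ℝ, ∀ s : Sp Ω, |E.indicator Ψ (past k s)| ≤ C := by
      obtain ⟨C, hC⟩ := hΨ.2
      refine ⟨C, fun s => ?_⟩
      by_cases h : past k s ∈ E
      · rw [Set.indicator_of_mem h]
        exact hC _
      · rw [Set.indicator_of_notMem h, abs_zero]
        exact (abs_nonneg _).trans (hC (past k s))
    have bE' : ∃ C : ℝ, ∀ s : Sp Ω, |E'.indicator Ψ' (past k s)| ≤ C := by
      obtain ⟨C, hC⟩ := hΨ'.2
      refine ⟨C, fun s => ?_⟩
      by_cases h : past k s ∈ E'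
      · rw [Set.indicator_of_mem h]
        exact hC _
      · rw [Set.indicator_of_notMem h, abs_zero]
        exact (abs_nonneg _).trans (hC (past k s))
    have key := hprod V hVc (fun s => E.indicator Ψ (past k s))
      (fun s => E'.indicator Ψ' (past k s)) mE bE mE' bE' ?_ ?_ f hf g ((hVo g).2 hg)
    · rw [exp_cast] at key
      have e : ∀ h : GV Ω, ∫ x, ((E.indicator Ψ (past k (a x)) *
          E'.indicator Ψ' (past k (a' x)) : ℝ) : ℂ) *
          Complex.exp (Complex.I * ((Wt h : X → ℝ) x : ℝ)) ∂μ =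
          ∫ x, ((E.indicator Ψ (past k (a x)) *
          E'.indicator Ψ' (past k (a' x)) : ℝ) : ℂ) *
          Complex.exp (Complex.I * W h (a x)) ∂μ := by
        intro h
        refine integral_congr_ae ?_
        filter_upwards [hWt1 h] with x hx
        rw [hx]
      rw [e, e]
      exact key
    · intro f hf g hg
      rw [exp_cast]
      exact hW3 k K hK E hE hEK Ψ hΨ f g hf ((hVo g).1 hg)
    · intro f hf g hg
      rw [exp_cast]
      exact hW3' k K hK E' hE' hEK' Ψ' hΨ' f g hf ((hVo g).1 hg)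

end Vale.Agent.P155.U877
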