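import Mathlib

/-!
# P155, block U: products of functions which depend on the field of `Vᗮ` only
-/

namespace Vale.Agent.P155.U877

open MeasureTheory Filter Topology
open scoped InnerProductSpace

/-- A Gaussian field `U` over the Hilbert space `𝓓`, on the probability space `(Y, γ)`, which
generates everything. -/
structure GField {𝓓 : Type*} [NormedAddCommGroup 𝓓] [InnerProductSpace ℝ 𝓓] {Y : Type*}
    [MeasurableSpace Y] (γ : Measure Y) (U : 𝓓 → Y → ℝ) : Prop where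
  prob : IsProbabilityMeasure γ
  meas : ∀ f, Measurable (U f)
  add : ∀ f g, U (f + g) =ᵐ[γ] fun y => U f y + U g y
  neg : ∀ f, U (-f) =ᵐ[γ] fun y => -U f y
  char : ∀ f, ∫ y, Complex.exp (Complex.I * U f y) ∂γ = Real.exp (-‖f‖ ^ 2 / 2)
  total : ∀ k : Y → ℂ, Integrable k γ → (∀ h, ∫ y, k y * Complex.exp (Complex.I * U h y) ∂γ = 0) →
    k =ᵐ[γ] 0

/-- `k` depends on the field of `Vᗮ` only -/
def Perp {𝓓 : Type*} [NormedAddCommGroup 𝓓] [InnerProductSpace ℝ 𝓓] {Y : Type*}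
    [MeasurableSpace Y] (γ : Measure Y) (U : 𝓓 → Y → ℝ) (V : Submodule ℝ 𝓓) (k : Y → ℝ) : Prop :=
  ∀ f ∈ V, ∀ g ∈ Vᗮ, ∫ y, (k y : ℂ) * Complex.exp (Complex.I * U (g + f) y) ∂γ =
    Real.exp (-‖f‖ ^ 2 / 2) * ∫ y, (k y : ℂ) * Complex.exp (Complex.I * U g y) ∂γ

variable {𝓓 : Type*} [NormedAddCommGroup 𝓓] [InnerProductSpace ℝ 𝓓] {Y : Type*}
    [MeasurableSpace Y] {γ : Measure Y} {U : 𝓓 → Y → ℝ}

theorem inner_toLp {a b : Y → ℂ} (ha : MemLp a 2 γ) (hb : MemLp b 2 γ) :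
    ⟪ha.toLp a, hb.toLp b⟫_ℂ = ∫ y, (starRingEnd ℂ) (a y) * b y ∂γ := by
  rw [L2.inner_def]
  refine integral_congr_ae ?_
  filter_upwards [ha.coeFn_toLp, hb.coeFn_toLp] with y h1 h2
  rw [h1, h2]
  simp [mul_comm]

/-- the exponentials -/
noncomputable def ex (U : 𝓓 → Y → ℝ) (h : 𝓓) (y : Y) : ℂ := Complex.exp (Complex.I * U h y)

theorem ex_norm (h : 𝓓) (y : Y) : ‖ex U h y‖ = 1 := by
  unfold ex
  rw [mul_comm]
  exact Complex.norm_exp_ofReal_mul_I _

theorem ex_meas (G : GField γ U) (h : 𝓓) : Measurable (ex U h) := by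
  unfold ex
  have := G.meas h
  fun_prop

theorem ex_memLp (G : GField γ U) (h : 𝓓) : MemLp (ex U h) 2 γ := by
  have := G.prob
  exact MemLp.of_bound (ex_meas G h).aestronglyMeasurable 1
    (Eventually.of_forall fun y => (ex_norm h y).le)

theorem ex_conj (G : GField γ U) (h : 𝓓) :
    (fun y => (starRingEnd ℂ) (ex U h y)) =ᵐ[γ] ex U (-h) := by
  filter_upwards [G.neg h] with y hy
  unfold ex
  rw [hy, ← Complex.exp_conj]
  simp

theorem ex_add (G : GField γ U) (f g : 𝓓) :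
    ex U (f + g) =ᵐ[γ] fun y => ex U f y * ex U g y := by
  filter_upwards [G.add f g] with y hy
  unfold ex
  rw [hy, ← Complex.exp_add]
  congr 1
  push_cast
  ring

/-- the test vectors `e_{g+f} - e^{-|f|²/2} e_g` -/
noncomputable def zz (U : 𝓓 → Y → ℝ) (g f : 𝓓) (y : Y) : ℂ :=
  ex U (g + f) y - (Real.exp (-‖f‖ ^ 2 / 2) : ℝ) * ex U g y

theorem zz_memLp (G : GField γ U) (g f : 𝓓) : MemLp (zz U g f) 2 γ :=
  (ex_memLp G _).sub ((ex_memLp G g).const_mul _)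

theorem zz_meas (G : GField γ U) (g f : 𝓓) : Measurable (zz U g f) :=
  (ex_meas G _).sub ((ex_meas G g).const_mul _)

theorem zz_bound (g f : 𝓓) (y : Y) : ‖zz U g f y‖ ≤ 2 := by
  unfold zz
  calc _ ≤ ‖ex U (g + f) y‖ + ‖((Real.exp (-‖f‖ ^ 2 / 2) : ℝ) : ℂ) * ex U g y‖ := norm_sub_le _ _
    _ ≤ 1 + 1 := by
        rw [norm_mul, ex_norm, ex_norm, mul_one, Complex.norm_real, Real.norm_eq_abs,
          abs_of_pos (Real.exp_pos _)]
        gcongr
        rw [Real.exp_le_one_iff]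
        have := sq_nonneg ‖f‖
        linarith
    _ = 2 := by norm_num

/-- `Perp` in terms of the test vectors -/
theorem perp_iff (G : GField γ U) {V : Submodule ℝ 𝓓} {k : Y → ℝ} (hk : Measurable k) {C : ℝ}
    (hC : ∀ y, |k y| ≤ C) : Perp γ U V k ↔
      ∀ f ∈ V, ∀ g ∈ Vᗮ, ∫ y, (starRingEnd ℂ) (zz U g f y) * (k y : ℂ) ∂γ = 0 := by
  have := G.prob
  have hint : ∀ h, Integrable (fun y => (k y : ℂ) * ex U h y) γ := by
    intro h
    refine Integrable.mul_bdd (c := 1) ?_ (ex_meas G h).aestronglyMeasurable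
      (Eventually.of_forall fun y => (ex_norm h y).le)
    refine (Integrable.of_bound (C := C) hk.aestronglyMeasurable
      (Eventually.of_forall fun y => ?_)).ofReal
    simpa using hC y
  have key : ∀ f g : 𝓓, ∫ y, (starRingEnd ℂ) (zz U g f y) * (k y : ℂ) ∂γ =
      (∫ y, (k y : ℂ) * ex U (-g + -f) y ∂γ) -
        Real.exp (-‖-f‖ ^ 2 / 2) * ∫ y, (k y : ℂ) * ex U (-g) y ∂γ := by
    intro f g
    rw [← integral_const_mul, ← integral_sub (hint _) ((hint _).const_mul _)]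
    refine integral_congr_ae ?_
    filter_upwards [ex_conj G (g + f), ex_conj G g] with y h1 h2
    unfold zz
    rw [map_sub, map_mul, h1, h2, Complex.conj_ofReal, norm_neg,
      show -(g + f) = -g + -f by abel]
    ring
  constructor
  · intro h f hf g hg
    rw [key, sub_eq_zero]
    exact h (-f) (V.neg_mem hf) (-g) (Vᗮ.neg_mem hg)
  · intro h f hf g hg
    have h1 := h (-f) (V.neg_mem hf) (-g) (Vᗮ.neg_mem hg)
    rw [key, sub_eq_zero, neg_neg, neg_neg] at h1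
    exact h1

/-- the closed span of the exponentials of the field of `Vᗮ` -/
noncomputable def KK (G : GField γ U) (V : Submodule ℝ 𝓓) : Submodule ℂ (Lp ℂ 2 γ) :=
  (Submodule.span ℂ (Set.range fun g : Vᗮ => (ex_memLp G (g : 𝓓)).toLp)).topologicalClosure

theorem mem_KK_orth (G : GField γ U) {V : Submodule ℝ 𝓓} {z : Lp ℂ 2 γ}
    (h : ∀ g ∈ Vᗮ, ⟪z, (ex_memLp G g).toLp⟫_ℂ = 0) {x : Lp ℂ 2 γ} (hx : x ∈ KK G V) :
    ⟪z, x⟫_ℂ = 0 := by
  have h1 : KK G V ≤ (Submodule.span ℂ {z})ᗮ := by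
    refine Submodule.topologicalClosure_minimal _ ?_ (Submodule.isClosed_orthogonal _)
    rw [Submodule.span_le]
    rintro _ ⟨g, rfl⟩
    rw [SetLike.mem_coe, Submodule.mem_orthogonal_singleton_iff_inner_right]
    exact h g g.2
  have h2 := h1 hx
  rwa [Submodule.mem_orthogonal_singleton_iff_inner_right] at h2

theorem inner_zz (G : GField γ U) {V : Submodule ℝ 𝓓} {f g g1 : 𝓓} (hf : f ∈ V) (hg : g ∈ Vᗮ)
    (hg1 : g1 ∈ Vᗮ) : ⟪(zz_memLp G g f).toLp, (ex_memLp G g1).toLp⟫_ℂ = 0 := by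
  have := G.prob
  rw [inner_toLp]
  have hint : ∀ h, Integrable (ex U h) γ := fun h => (ex_memLp G h).integrable (by norm_num)
  have e : ∫ y, (starRingEnd ℂ) (zz U g f y) * ex U g1 y ∂γ =
      (∫ y, ex U (-(g + f) + g1) y ∂γ) -
        Real.exp (-‖f‖ ^ 2 / 2) * ∫ y, ex U (-g + g1) y ∂γ := by
    rw [← integral_const_mul, ← integral_sub (hint _) ((hint _).const_mul _)]
    refine integral_congr_ae ?_
    filter_upwards [ex_conj G (g + f), ex_conj G g, ex_add G (-(g + f)) g1, ex_add G (-g) g1]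
      with y h1 h2 h3 h4
    unfold zz
    rw [map_sub, map_mul, h1, h2, h3, h4, Complex.conj_ofReal]
    ring
  rw [e]
  have h1 : ∫ y, ex U (-(g + f) + g1) y ∂γ = Real.exp (-‖-(g + f) + g1‖ ^ 2 / 2) := G.char _
  have h2 : ∫ y, ex U (-g + g1) y ∂γ = Real.exp (-‖-g + g1‖ ^ 2 / 2) := G.char _
  rw [h1, h2, ← Complex.ofReal_mul, ← Real.exp_add]
  have h3 : ‖-(g + f) + g1‖ ^ 2 = ‖f‖ ^ 2 + ‖-g + g1‖ ^ 2 := by
    have e1 : -(g + f) + g1 = (-g + g1) + (-f) := by abel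
    have e2 : ⟪-g + g1, -f⟫_ℝ = 0 := by
      have : -g + g1 ∈ Vᗮ := Vᗮ.add_mem (Vᗮ.neg_mem hg) hg1
      exact (Submodule.mem_orthogonal' _ _).1 this _ (V.neg_mem hf)
    rw [e1, @norm_add_sq_real, e2, norm_neg]
    ring
  rw [h3]
  have h4 : -(‖f‖ ^ 2 + ‖-g + g1‖ ^ 2) / 2 = -‖f‖ ^ 2 / 2 + -‖-g + g1‖ ^ 2 / 2 := by ring
  rw [h4, sub_self]

theorem real_memLp [IsProbabilityMeasure γ] {k : Y → ℝ} (hk : Measurable k) {C : ℝ}
    (hC : ∀ y, |k y| ≤ C) : MemLp (fun y => (k y : ℂ)) 2 γ := by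
  refine MemLp.of_bound (by fun_prop) C (Eventually.of_forall fun y => ?_)
  simpa using hC y

/-- a bounded function with `Perp` lies in the closed span -/
theorem mem_KK [CompleteSpace 𝓓] (G : GField γ U) {V : Submodule ℝ 𝓓} (hV : IsClosed (V : Set 𝓓)) {k : Y → ℝ}
    (hk : Measurable k) {C : ℝ} (hC : ∀ y, |k y| ≤ C) (hP : Perp γ U V k)
    (hmem : MemLp (fun y => (k y : ℂ)) 2 γ) : hmem.toLp ∈ KK G V := by
  have := G.prob
  have hVc : CompleteSpace V := hV.completeSpace_coe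
  rw [perp_iff G hk hC] at hP
  have hcl : IsClosed (KK G V : Set (Lp ℂ 2 γ)) := Submodule.isClosed_topologicalClosure _
  have hcomp : CompleteSpace (KK G V) := hcl.completeSpace_coe
  obtain ⟨k0, hk0, k1, hk1, hsum⟩ := (KK G V).exists_add_mem_mem_orthogonal hmem.toLp
  suffices h : k1 = 0 by
    rw [hsum, h, add_zero]
    exact hk0
  have hgK : ∀ g ∈ Vᗮ, (ex_memLp G g).toLp ∈ KK G V := by
    intro g hg
    exact Submodule.le_topologicalClosure _ (Submodule.subset_span ⟨⟨g, hg⟩, rfl⟩)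
  have hg0 : ∀ g ∈ Vᗮ, ⟪(ex_memLp G g).toLp, k1⟫_ℂ = 0 := fun g hg =>
    (Submodule.mem_orthogonal _ _).1 hk1 _ (hgK g hg)
  have hz : ∀ f ∈ V, ∀ g ∈ Vᗮ, ⟪(zz_memLp G g f).toLp, k1⟫_ℂ = 0 := by
    intro f hf g hg
    have e1 : ⟪(zz_memLp G g f).toLp, hmem.toLp⟫_ℂ = 0 := by
      rw [inner_toLp]
      exact hP f hf g hg
    have e2 : ⟪(zz_memLp G g f).toLp, k0⟫_ℂ = 0 :=
      mem_KK_orth G (fun g1 hg1 => inner_zz G hf hg hg1) hk0
    rw [hsum, inner_add_right, e2, zero_add] at e1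
    exact e1
  have hall : ∀ h : 𝓓, ⟪(ex_memLp G h).toLp, k1⟫_ℂ = 0 := by
    intro h
    obtain ⟨f, hf, g, hg, hfg⟩ := V.exists_add_mem_mem_orthogonal h
    have e1 := hz f hf g hg
    have e2 : (zz_memLp G g f).toLp = (ex_memLp G (g + f)).toLp -
        ((Real.exp (-‖f‖ ^ 2 / 2) : ℝ) : ℂ) • (ex_memLp G g).toLp := by
      rw [← MemLp.toLp_const_smul, ← MemLp.toLp_sub]
      rfl
    rw [e2, inner_sub_left, inner_smul_left, hg0 g hg, mul_zero, sub_zero] at e1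
    rw [hfg, add_comm]
    exact e1
  have hk1L : MemLp (k1 : Y → ℂ) 2 γ := Lp.memLp k1
  have h0 : (k1 : Y → ℂ) =ᵐ[γ] 0 := by
    refine G.total _ (hk1L.integrable (by norm_num)) fun h => ?_
    have e1 := hall (-h)
    rw [L2.inner_def] at e1
    rw [← e1]
    refine integral_congr_ae ?_
    filter_upwards [(ex_memLp G (-h)).coeFn_toLp, ex_conj G (-h)] with y h1 h2
    rw [h1]
    rw [neg_neg] at h2
    simp only [RCLike.inner_apply]
    rw [h2]
    rfl
  exact (Lp.eq_zero_iff_ae_eq_zero).2 h0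

/-- **Products**: if `k` and `k'` depend on the field of `Vᗮ` only, so does `k k'`. -/
theorem perp_mul [CompleteSpace 𝓓] (G : GField γ U) {V : Submodule ℝ 𝓓} (hV : IsClosed (V : Set 𝓓)) {k k' : Y → ℝ}
    (hk : Measurable k) {C : ℝ} (hC : ∀ y, |k y| ≤ C) (hP : Perp γ U V k)
    (hk' : Measurable k') {C' : ℝ} (hC' : ∀ y, |k' y| ≤ C') (hP' : Perp γ U V k') :
    Perp γ U V (fun y => k y * k' y) := by
  have := G.prob
  have hb : ∀ y, |k y * k' y| ≤ C * C' := by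
    intro y
    rw [abs_mul]
    exact mul_le_mul (hC y) (hC' y) (abs_nonneg _) ((abs_nonneg _).trans (hC y))
  have hkk : Measurable (fun y => k y * k' y) := hk.mul hk'
  rw [perp_iff G hkk hb]
  intro f hf g hg
  have hmem := real_memLp (γ := γ) hk hC
  have hkK := mem_KK G hV hk hC hP hmem
  rw [perp_iff G hk' hC'] at hP'
  -- the vector `k' z`
  have hwm : MemLp (fun y => (k' y : ℂ) * zz U g f y) 2 γ := by
    refine MemLp.of_bound (C := C' * 2) ?_ (Eventually.of_forall fun y => ?_)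
    · have h1 := zz_meas G g f
      fun_prop
    · rw [norm_mul]
      have h1 : ‖(k' y : ℂ)‖ ≤ C' := by simpa using hC' y
      exact mul_le_mul h1 (zz_bound g f y) (norm_nonneg _) ((norm_nonneg _).trans h1)
  have horth : ⟪hwm.toLp, hmem.toLp⟫_ℂ = 0 := by
    refine mem_KK_orth G (fun g1 hg1 => ?_) hkK
    rw [inner_toLp]
    have h1 := hP' f hf (g - g1) (Vᗮ.sub_mem hg hg1)
    rw [← h1]
    refine integral_congr_ae ?_
    filter_upwards [ex_add G (g + f) (-g1), ex_add G g (-g1), ex_conj G (-g1)] with y h2 h3 h4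
    unfold zz
    rw [show g - g1 + f = g + f + -g1 by abel, show g - g1 = g + -g1 by abel, h2, h3]
    rw [neg_neg] at h4
    simp only [map_sub, map_mul, Complex.conj_ofReal]
    rw [h4]
    ring
  rw [inner_toLp] at horth
  rw [← horth]
  refine integral_congr_ae (Eventually.of_forall fun y => ?_)
  simp only [map_mul, Complex.conj_ofReal]
  push_cast
  ring

end Vale.Agent.P155.U877
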