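import Vale.Agent.P155.U877.FT
import Vale.Agent.P155.U877.Prod

/-!
# P155, block U (CPL-2): the coupling of two structures through a common Gaussian field
-/

namespace Vale.Agent.P155.U877

open MeasureTheory ProbabilityTheory Filter Topology

section Field

variable {𝓓 : Type*} [NormedAddCommGroup 𝓓] [InnerProductSpace ℝ 𝓓]
  {S : Type*} [MeasurableSpace S] {Q : Measure S} [IsProbabilityMeasure Q]

/-- finite sums of `W` -/
theorem W_sum (W : 𝓓 →ₗᵢ[ℝ] Lp ℝ 2 Q) (b : ℕ → 𝓓) (t : ℕ → ℝ) (s : Finset ℕ) :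
    (W (∑ n ∈ s, t n • b n) : S → ℝ) =ᵐ[Q] fun x => ∑ n ∈ s, t n * W (b n) x := by
  classical
  induction s using Finset.induction_on with
  | empty =>
    simp only [Finset.sum_empty, map_zero]
    exact Lp.coeFn_zero ℝ 2 Q
  | insert a s ha ih =>
    rw [Finset.sum_insert ha, map_add, map_smul]
    filter_upwards [Lp.coeFn_add (t a • W (b a)) (W (∑ n ∈ s, t n • b n)), ih,
      Lp.coeFn_smul (t a) (W (b a))] with x h1 h2 h3
    rw [h1, Pi.add_apply, h2, h3, Finset.sum_insert ha]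
    rfl

/-- the sequence of coordinates -/
noncomputable def seqOf (W : 𝓓 →ₗᵢ[ℝ] Lp ℝ 2 Q) (b : ℕ → 𝓓) (s : S) : ℕ → ℝ :=
  fun n => W (b n) s

theorem meas_seqOf (W : 𝓓 →ₗᵢ[ℝ] Lp ℝ 2 Q) (b : ℕ → 𝓓) : Measurable (seqOf W b) :=
  measurable_pi_lambda _ fun n => (Lp.stronglyMeasurable (W (b n))).measurable

/-- the law of the coordinates -/
theorem char_seqOf (W : 𝓓 →ₗᵢ[ℝ] Lp ℝ 2 Q)
    (hW : ∀ f, ∫ s, Complex.exp (Complex.I * W f s) ∂Q = Real.exp (-‖f‖ ^ 2 / 2))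
    (b : ℕ → 𝓓) (w : ℕ →₀ ℝ) :
    ∫ y, Complex.exp (Complex.I * (w.sum fun n t => t * y n : ℝ)) ∂(Q.map (seqOf W b)) =
      Real.exp (-‖∑ n ∈ w.support, w n • b n‖ ^ 2 / 2) := by
  have hm : Measurable (fun y : ℕ → ℝ =>
      Complex.exp (Complex.I * (w.sum fun n t => t * y n : ℝ))) := by
    simp only [Finsupp.sum]
    fun_prop
  rw [integral_map (meas_seqOf W b).aemeasurable hm.aestronglyMeasurable, ← hW]
  refine integral_congr_ae ?_
  filter_upwards [W_sum W b w w.support] with x hx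
  simp only [hx]
  rfl

end Field

/-- A structure carrying the field, relative to the law `γ` on `ℕ → ℝ` -/
structure Half {𝓓 : Type*} [NormedAddCommGroup 𝓓] [InnerProductSpace ℝ 𝓓]
    {S : Type*} [MeasurableSpace S] (Q : Measure S) (γ : Measure (ℕ → ℝ)) (U : 𝓓 → Lp ℝ 2 γ)
    (W : 𝓓 → Lp ℝ 2 Q) (ξ : S → ℕ → ℝ) (K : Kernel (ℕ → ℝ) S) : Prop where
  mξ : Measurable ξ
  law : Q.map ξ = γ
  mker : IsMarkovKernel K
  dis : γ ⊗ₘ K = Q.map (fun s => (ξ s, s))
  eq : ∀ f, (W f : S → ℝ) =ᵐ[Q] fun s => U f (ξ s)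

section Build

variable {𝓓 : Type*} [NormedAddCommGroup 𝓓] [InnerProductSpace ℝ 𝓓]

theorem comp_inj {S : Type*} [MeasurableSpace S] {Q : Measure S} {γ : Measure (ℕ → ℝ)}
    {ξ : S → ℕ → ℝ} (hξ : MeasurePreserving ξ Q γ) :
    Function.Injective (Lp.compMeasurePreserving ξ hξ : Lp ℝ 2 γ → Lp ℝ 2 Q) :=
  (Lp.isometry_compMeasurePreserving hξ).injective

theorem coord_memLp {S : Type*} [MeasurableSpace S] {Q : Measure S} [IsProbabilityMeasure Q]
    (W : 𝓓 →ₗᵢ[ℝ] Lp ℝ 2 Q) (b : ℕ → 𝓓) (n : ℕ) :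
    MemLp (fun y : ℕ → ℝ => y n) 2 (Q.map (seqOf W b)) := by
  rw [memLp_map_measure_iff (measurable_pi_apply n).aestronglyMeasurable
    (meas_seqOf W b).aemeasurable]
  exact Lp.memLp (W (b n))

theorem comp_coord {S : Type*} [MeasurableSpace S] {Q : Measure S} [IsProbabilityMeasure Q]
    (W : 𝓓 →ₗᵢ[ℝ] Lp ℝ 2 Q) (b : ℕ → 𝓓) {γ : Measure (ℕ → ℝ)}
    (hξ : MeasurePreserving (seqOf W b) Q γ) (n : ℕ) (hn : MemLp (fun y : ℕ → ℝ => y n) 2 γ) :
    Lp.compMeasurePreserving (seqOf W b) hξ hn.toLp = W (b n) := by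
  rw [Lp.toLp_compMeasurePreserving]
  ext1
  filter_upwards [(hn.comp_measurePreserving hξ).coeFn_toLp] with x hx
  rw [hx]
  rfl

/-- the field on `ℕ → ℝ` -/
theorem exists_U {S S' : Type*} [MeasurableSpace S] [MeasurableSpace S'] {Q : Measure S}
    {Q' : Measure S'} [IsProbabilityMeasure Q] [IsProbabilityMeasure Q']
    (W : 𝓓 →ₗᵢ[ℝ] Lp ℝ 2 Q) (W' : 𝓓 →ₗᵢ[ℝ] Lp ℝ 2 Q') (b : ℕ → 𝓓) (hb : DenseRange b)
    {γ : Measure (ℕ → ℝ)} (hγ : Q.map (seqOf W b) = γ) (hγ' : Q'.map (seqOf W' b) = γ) :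
    ∃ U : 𝓓 → Lp ℝ 2 γ, (∀ f g, U (f + g) = U f + U g) ∧ (∀ f, U (-f) = -U f) ∧
      (∀ f, (W f : S → ℝ) =ᵐ[Q] fun s => U f (seqOf W b s)) ∧
      (∀ f, (W' f : S' → ℝ) =ᵐ[Q'] fun s => U f (seqOf W' b s)) := by
  have hξ : MeasurePreserving (seqOf W b) Q γ := ⟨meas_seqOf W b, hγ⟩
  have hξ' : MeasurePreserving (seqOf W' b) Q' γ := ⟨meas_seqOf W' b, hγ'⟩
  set C : Lp ℝ 2 γ →+ Lp ℝ 2 Q :=
    Lp.compMeasurePreserving (E := ℝ) (p := 2) (seqOf W b) hξ with hC
  set C' : Lp ℝ 2 γ →+ Lp ℝ 2 Q' :=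
    Lp.compMeasurePreserving (E := ℝ) (p := 2) (seqOf W' b) hξ' with hC'
  have iC : Isometry C := Lp.isometry_compMeasurePreserving (E := ℝ) (p := 2) hξ
  have iC' : Isometry C' := Lp.isometry_compMeasurePreserving (E := ℝ) (p := 2) hξ'
  have hco : ∀ n, MemLp (fun y : ℕ → ℝ => y n) 2 γ := fun n => by
    rw [← hγ]
    exact coord_memLp W b n
  have hrange : ∀ f, W f ∈ Set.range C := by
    intro f
    have hcl : IsClosed {f : 𝓓 | W f ∈ Set.range C} :=
      iC.isClosedEmbedding.isClosed_range.preimage W.continuous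
    have hd : {f : 𝓓 | W f ∈ Set.range C} = Set.univ := by
      rw [← hcl.closure_eq]
      refine (hb.mono ?_).closure_eq
      rintro _ ⟨n, rfl⟩
      exact ⟨(hco n).toLp, comp_coord W b hξ n (hco n)⟩
    have : f ∈ {f : 𝓓 | W f ∈ Set.range C} := by
      rw [hd]
      trivial
    exact this
  choose U hU using hrange
  have hadd : ∀ f g, U (f + g) = U f + U g := by
    intro f g
    apply iC.injective
    rw [map_add, hU, hU, hU, map_add]
  have hneg : ∀ f, U (-f) = -U f := by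
    intro f
    apply iC.injective
    rw [map_neg, hU, hU, map_neg]
  have iU : Isometry U := by
    refine Isometry.of_dist_eq fun f g => ?_
    rw [← iC.dist_eq, hU, hU, W.dist_map]
  have hU' : ∀ f, C' (U f) = W' f := by
    have hext : (fun f => C' (U f)) = fun f => W' f := by
      refine Continuous.ext_on hb (iC'.continuous.comp iU.continuous) W'.continuous ?_
      rintro _ ⟨n, rfl⟩
      have h1 : U (b n) = (hco n).toLp := by
        apply iC.injective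
        rw [hU]
        exact (comp_coord W b hξ n (hco n)).symm
      change C' (U (b n)) = W' (b n)
      rw [h1]
      exact comp_coord W' b hξ' n (hco n)
    exact fun f => congrFun hext f
  refine ⟨U, hadd, hneg, fun f => ?_, fun f => ?_⟩
  · rw [← hU f]
    exact Lp.coeFn_compMeasurePreserving _ hξ
  · rw [← hU' f]
    exact Lp.coeFn_compMeasurePreserving _ hξ'

end Build

end Vale.Agent.P155.U877
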