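import Mathlib

/-!
# P155, block U: Fourier uniqueness on `ℕ → ℝ`
-/

namespace Vale.Agent.P155.U877

open MeasureTheory BoundedContinuousFunction

/-- finite measures on `ℕ → ℝ` are determined by their finite-dimensional Fourier transforms -/
theorem ext_of_char {P P' : Measure (ℕ → ℝ)} [IsFiniteMeasure P] [IsFiniteMeasure P']
    (h : ∀ w : ℕ →₀ ℝ, ∫ y, Complex.exp (Complex.I * (w.sum fun n t => t * y n : ℝ)) ∂P =
      ∫ y, Complex.exp (Complex.I * (w.sum fun n t => t * y n : ℝ)) ∂P') : P = P' := by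
  let : TopologicalSpace (ℕ →₀ ℝ) := ⊥
  have : DiscreteTopology (ℕ →₀ ℝ) := ⟨rfl⟩
  let L : (ℕ → ℝ) →ₗ[ℝ] (ℕ →₀ ℝ) →ₗ[ℝ] ℝ := (Finsupp.llift ℝ ℝ ℝ ℕ).toLinearMap
  have hLapp : ∀ v w, L v w = w.sum fun n t => t * v n := fun v w => by
    simp [L, Finsupp.llift_apply, Finsupp.lift_apply]
  have hL : Continuous fun p : (ℕ → ℝ) × (ℕ →₀ ℝ) => L p.1 p.2 := by
    rw [continuous_prod_of_discrete_right]
    intro w
    simp only [hLapp, Finsupp.sum]
    fun_prop
  have hL' : ∀ v ≠ 0, L v ≠ 0 := by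
    intro v hv h0
    apply hv
    funext n
    have := hLapp v (Finsupp.single n 1)
    rw [h0] at this
    simpa using this.symm
  have hchar : ∀ (w : ℕ →₀ ℝ) (y : ℕ → ℝ), ((Real.probChar (L y w) : Circle) : ℂ) =
      Complex.exp (Complex.I * (w.sum fun n t => t * y n : ℝ)) := by
    intro w y
    rw [Real.probChar_apply, hLapp, mul_comm]
  refine ext_of_forall_mem_subalgebra_integral_eq_of_polish (𝕜 := ℂ)
    (separatesPoints_charPoly Real.continuous_probChar Real.probChar_ne_one hL hL') ?_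
  intro g hg
  simp only [mem_charPoly] at hg
  obtain ⟨w, hw⟩ := hg
  rw [hw]
  have hsum (P : Measure (ℕ → ℝ)) [IsFiniteMeasure P] :
      ∫ v, w.coeff.sum (fun a z ↦ z * ((Real.probChar (L v a) : Circle) : ℂ)) ∂P =
        w.coeff.sum (fun a z ↦ ∫ v, z * ((Real.probChar (L v a) : Circle) : ℂ) ∂P) :=
    integral_finsetSum _ fun a ha ↦
      ((char Real.continuous_probChar hL a).integrable P).const_mul  _
  rw [hsum P, hsum P']
  apply Finset.sum_congr rfl fun i _ => ?_
  simp only [integral_const_mul]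
  congr 1
  simp only [hchar]
  exact h i

/-- real functions -/
theorem real_zero_of_char {γ : Measure (ℕ → ℝ)} [IsFiniteMeasure γ] {k : (ℕ → ℝ) → ℝ}
    (hk : Integrable k γ)
    (h : ∀ w : ℕ →₀ ℝ, ∫ y, (k y : ℂ) *
      Complex.exp (Complex.I * (w.sum fun n t => t * y n : ℝ)) ∂γ = 0) : k =ᵐ[γ] 0 := by
  set P : Measure (ℕ → ℝ) := γ.withDensity (fun y => ENNReal.ofReal (k y)) with hP
  set P' : Measure (ℕ → ℝ) := γ.withDensity (fun y => ENNReal.ofReal (-k y)) with hP'
  have : IsFiniteMeasure P := isFiniteMeasure_withDensity_ofReal hk.2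
  have : IsFiniteMeasure P' := isFiniteMeasure_withDensity_ofReal hk.neg.2
  have hmeas : ∀ w : ℕ →₀ ℝ, Measurable (fun y : ℕ → ℝ =>
      Complex.exp (Complex.I * (w.sum fun n t => t * y n : ℝ))) := by
    intro w
    simp only [Finsupp.sum]
    fun_prop
  have hnorm : ∀ (w : ℕ →₀ ℝ) (y : ℕ → ℝ),
      ‖Complex.exp (Complex.I * (w.sum fun n t => t * y n : ℝ))‖ = 1 := by
    intro w y
    rw [mul_comm]
    exact Complex.norm_exp_ofReal_mul_I _
  have e1 : ∀ w : ℕ →₀ ℝ, ∫ y, Complex.exp (Complex.I * (w.sum fun n t => t * y n : ℝ)) ∂P =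
      ∫ y, ((max (k y) 0 : ℝ) : ℂ) *
        Complex.exp (Complex.I * (w.sum fun n t => t * y n : ℝ)) ∂γ := by
    intro w
    rw [hP, integral_withDensity_eq_integral_toReal_smul₀ (by fun_prop) (by simp)]
    refine integral_congr_ae (Filter.Eventually.of_forall fun y => ?_)
    simp only [ENNReal.toReal_ofReal', Complex.real_smul]
  have e2 : ∀ w : ℕ →₀ ℝ, ∫ y, Complex.exp (Complex.I * (w.sum fun n t => t * y n : ℝ)) ∂P' =
      ∫ y, ((max (-k y) 0 : ℝ) : ℂ) *
        Complex.exp (Complex.I * (w.sum fun n t => t * y n : ℝ)) ∂γ := by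
    intro w
    rw [hP', integral_withDensity_eq_integral_toReal_smul₀ (by fun_prop) (by simp)]
    refine integral_congr_ae (Filter.Eventually.of_forall fun y => ?_)
    simp only [ENNReal.toReal_ofReal', Complex.real_smul]
  have hint : ∀ (f : (ℕ → ℝ) → ℝ) (w : ℕ →₀ ℝ), Integrable f γ → Integrable (fun y =>
      (f y : ℂ) * Complex.exp (Complex.I * (w.sum fun n t => t * y n : ℝ))) γ := by
    intro f w hf
    refine (hf.ofReal (𝕜 := ℂ)).mul_bdd (c := 1) (hmeas w).aestronglyMeasurable
      (Filter.Eventually.of_forall fun y => (hnorm w y).le)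
  have hPP : P = P' := by
    refine ext_of_char fun w => ?_
    rw [e1, e2, ← sub_eq_zero, ← integral_sub (hint _ w hk.pos_part) (hint _ w hk.neg_part), ← h w]
    refine integral_congr_ae (Filter.Eventually.of_forall fun y => ?_)
    simp only
    rw [← sub_mul, ← Complex.ofReal_sub, max_zero_sub_max_neg_zero_eq_self]
  have h3 : (fun y => ENNReal.ofReal (k y)) =ᵐ[γ] (fun y => ENNReal.ofReal (-k y)) := by
    have hfin : ∫⁻ y, ENNReal.ofReal (k y) ∂γ ≠ ⊤ := by
      have := hk.lintegral_lt_top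
      exact this.ne
    exact (withDensity_eq_iff (by fun_prop) (by fun_prop) hfin).1 hPP
  filter_upwards [h3] with y hy
  simp only [Pi.zero_apply]
  rcases le_total 0 (k y) with h0 | h0
  · rw [ENNReal.ofReal_of_nonpos (by linarith : -k y ≤ 0), ENNReal.ofReal_eq_zero] at hy
    exact le_antisymm hy h0
  · rw [ENNReal.ofReal_of_nonpos h0, eq_comm, ENNReal.ofReal_eq_zero] at hy
    linarith

/-- complex functions -/
theorem zero_of_char {γ : Measure (ℕ → ℝ)} [IsFiniteMeasure γ] {k : (ℕ → ℝ) → ℂ}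
    (hk : Integrable k γ)
    (h : ∀ w : ℕ →₀ ℝ, ∫ y, k y *
      Complex.exp (Complex.I * (w.sum fun n t => t * y n : ℝ)) ∂γ = 0) : k =ᵐ[γ] 0 := by
  have hmeas : ∀ w : ℕ →₀ ℝ, Measurable (fun y : ℕ → ℝ =>
      Complex.exp (Complex.I * (w.sum fun n t => t * y n : ℝ))) := by
    intro w
    simp only [Finsupp.sum]
    fun_prop
  have hnorm : ∀ (w : ℕ →₀ ℝ) (y : ℕ → ℝ),
      ‖Complex.exp (Complex.I * (w.sum fun n t => t * y n : ℝ))‖ = 1 := by
    intro w y
    rw [mul_comm]
    exact Complex.norm_exp_ofReal_mul_I _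
  have hint : ∀ (f : (ℕ → ℝ) → ℂ) (w : ℕ →₀ ℝ), Integrable f γ → Integrable (fun y =>
      f y * Complex.exp (Complex.I * (w.sum fun n t => t * y n : ℝ))) γ := by
    intro f w hf
    exact hf.mul_bdd (c := 1) (hmeas w).aestronglyMeasurable
      (Filter.Eventually.of_forall fun y => (hnorm w y).le)
  have hconj : ∀ w : ℕ →₀ ℝ, ∫ y, (starRingEnd ℂ) (k y) *
      Complex.exp (Complex.I * (w.sum fun n t => t * y n : ℝ)) ∂γ = 0 := by
    intro w
    have h1 := congrArg (starRingEnd ℂ) (h (-w))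
    rw [← integral_conj, map_zero] at h1
    rw [← h1]
    refine integral_congr_ae (Filter.Eventually.of_forall fun y => ?_)
    simp only [map_mul]
    congr 1
    rw [← Complex.exp_conj]
    congr 1
    simp only [map_mul, Complex.conj_I, Complex.conj_ofReal]
    rw [Finsupp.sum_neg_index (by simp)]
    simp [Finsupp.sum]
  have hkc : Integrable (fun y => (starRingEnd ℂ) (k y)) γ := by
    have := hk.norm
    refine ⟨Complex.continuous_conj.comp_aestronglyMeasurable hk.1, ?_⟩
    refine hk.2.congr' (Filter.Eventually.of_forall fun y => ?_)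
    simp
  have hre : (fun y => (k y).re) =ᵐ[γ] 0 := by
    refine real_zero_of_char hk.re fun w => ?_
    have e : ∀ y, ((k y).re : ℂ) * Complex.exp (Complex.I * (w.sum fun n t => t * y n : ℝ)) =
        (1 / 2 : ℂ) * (k y * Complex.exp (Complex.I * (w.sum fun n t => t * y n : ℝ)) +
          (starRingEnd ℂ) (k y) *
            Complex.exp (Complex.I * (w.sum fun n t => t * y n : ℝ))) := by
      intro y
      rw [← add_mul, Complex.add_conj]
      push_cast
      ring
    simp_rw [e]
    rw [integral_const_mul, integral_add (hint _ w hk) (hint _ w hkc), h w, hconj w]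
    simp
  have him : (fun y => (k y).im) =ᵐ[γ] 0 := by
    refine real_zero_of_char hk.im fun w => ?_
    have e : ∀ y, ((k y).im : ℂ) * Complex.exp (Complex.I * (w.sum fun n t => t * y n : ℝ)) =
        (1 / (2 * Complex.I) : ℂ) *
          (k y * Complex.exp (Complex.I * (w.sum fun n t => t * y n : ℝ)) -
          (starRingEnd ℂ) (k y) *
            Complex.exp (Complex.I * (w.sum fun n t => t * y n : ℝ))) := by
      intro y
      rw [← sub_mul, Complex.sub_conj]
      have hI := Complex.I_ne_zero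
      field_simp
      push_cast
      ring
    simp_rw [e]
    rw [integral_const_mul, integral_sub (hint _ w hk) (hint _ w hkc), h w, hconj w]
    simp
  filter_upwards [hre, him] with y h1 h2
  exact Complex.ext h1 h2

end Vale.Agent.P155.U877
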