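import Vale.Agent.P155.U877.Cpl2

/-!
# P155, block U (CPL-2): the coupling theorem
-/

namespace Vale.Agent.P155.U877

open MeasureTheory ProbabilityTheory Filter Topology

section Couple

variable {𝓓 : Type*} [NormedAddCommGroup 𝓓] [InnerProductSpace ℝ 𝓓]
  {S S' : Type*} [MeasurableSpace S] [MeasurableSpace S'] {Q : Measure S} {Q' : Measure S'}
  [IsProbabilityMeasure Q] [IsProbabilityMeasure Q'] {γ : Measure (ℕ → ℝ)}
  [IsProbabilityMeasure γ] {U : 𝓓 → Lp ℝ 2 γ} {W : 𝓓 → Lp ℝ 2 Q} {W' : 𝓓 → Lp ℝ 2 Q'}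
  {ξ : S → ℕ → ℝ} {ξ' : S' → ℕ → ℝ} {K : Kernel (ℕ → ℝ) S} {K' : Kernel (ℕ → ℝ) S'}

theorem Half.integral (H : Half Q γ U W ξ K) {κ : S → ℝ} (hκ : Measurable κ) {C : ℝ}
    (hC : ∀ s, |κ s| ≤ C) {φ : (ℕ → ℝ) → ℂ} (hφ : Measurable φ) (hφ1 : ∀ y, ‖φ y‖ ≤ 1) :
    ∫ s, (κ s : ℂ) * φ (ξ s) ∂Q = ∫ y, ((∫ s, κ s ∂(K y) : ℝ) : ℂ) * φ y ∂γ := by
  have := H.mker
  have hmF : Measurable (fun p : (ℕ → ℝ) × S => (κ p.2 : ℂ) * φ p.1) := by fun_prop
  have h1 : ∫ s, (κ s : ℂ) * φ (ξ s) ∂Q =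
      ∫ p, (κ p.2 : ℂ) * φ p.1 ∂(Q.map (fun s => (ξ s, s))) := by
    have hm2 : Measurable (fun s => (ξ s, s)) := H.mξ.prodMk measurable_id
    rw [integral_map hm2.aemeasurable hmF.aestronglyMeasurable]
  rw [h1, ← H.dis, Measure.integral_compProd]
  · refine integral_congr_ae (Eventually.of_forall fun y => ?_)
    simp only
    rw [integral_mul_const, integral_complex_ofReal]
  · refine Integrable.of_bound (C := C) hmF.aestronglyMeasurable (Eventually.of_forall fun p => ?_)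
    rw [norm_mul]
    have h2 : ‖(κ p.2 : ℂ)‖ ≤ C := by simpa using hC p.2
    calc _ ≤ C * 1 := mul_le_mul h2 (hφ1 _) (norm_nonneg _) ((norm_nonneg _).trans h2)
      _ = C := mul_one C

/-- the coupled measure -/
noncomputable def cpm (γ : Measure (ℕ → ℝ)) (K : Kernel (ℕ → ℝ) S) (K' : Kernel (ℕ → ℝ) S') :
    Measure ((ℕ → ℝ) × (S × S')) := γ ⊗ₘ (K ×ₖ K')

theorem cpm_marg [IsMarkovKernel K] [IsMarkovKernel K'] :
    (cpm γ K K').map (fun x => (x.1, x.2.1)) = γ ⊗ₘ K := by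
  ext E hE
  have hm : Measurable (fun x : (ℕ → ℝ) × (S × S') => (x.1, x.2.1)) := by fun_prop
  rw [Measure.map_apply hm hE, cpm, Measure.compProd_apply (hm hE), Measure.compProd_apply hE]
  refine lintegral_congr fun y => ?_
  have e : K y = (K ×ₖ K').fst y := by rw [Kernel.fst_prod]
  rw [e, Kernel.fst_apply' _ _ (measurable_prodMk_left hE)]
  rfl

theorem cpm_marg' [IsMarkovKernel K] [IsMarkovKernel K'] :
    (cpm γ K K').map (fun x => (x.1, x.2.2)) = γ ⊗ₘ K' := by
  ext E hE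
  have hm : Measurable (fun x : (ℕ → ℝ) × (S × S') => (x.1, x.2.2)) := by fun_prop
  rw [Measure.map_apply hm hE, cpm, Measure.compProd_apply (hm hE), Measure.compProd_apply hE]
  refine lintegral_congr fun y => ?_
  have e : K' y = (K ×ₖ K').snd y := by rw [Kernel.snd_prod]
  rw [e, Kernel.snd_apply' _ _ (measurable_prodMk_left hE)]
  rfl

theorem cpm_integral [IsMarkovKernel K] [IsMarkovKernel K'] {κ : S → ℝ} (hκ : Measurable κ)
    {C : ℝ} (hC : ∀ s, |κ s| ≤ C) {κ' : S' → ℝ} (hκ' : Measurable κ') {C' : ℝ}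
    (hC' : ∀ s, |κ' s| ≤ C') {φ : (ℕ → ℝ) → ℂ} (hφ : Measurable φ) (hφ1 : ∀ y, ‖φ y‖ ≤ 1) :
    ∫ x, ((κ x.2.1 * κ' x.2.2 : ℝ) : ℂ) * φ x.1 ∂(cpm γ K K') =
      ∫ y, (((∫ s, κ s ∂(K y)) * (∫ s, κ' s ∂(K' y)) : ℝ) : ℂ) * φ y ∂γ := by
  have hmF : Measurable (fun x : (ℕ → ℝ) × (S × S') =>
      ((κ x.2.1 * κ' x.2.2 : ℝ) : ℂ) * φ x.1) := by fun_prop
  rw [cpm, Measure.integral_compProd]
  · refine integral_congr_ae (Eventually.of_forall fun y => ?_)
    simp only
    rw [integral_mul_const, integral_complex_ofReal, Kernel.prod_apply]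
    congr 2
    exact integral_prod_mul (μ := K y) (ν := K' y) κ κ'
  · refine Integrable.of_bound (C := C * C') hmF.aestronglyMeasurable
      (Eventually.of_forall fun x => ?_)
    rw [norm_mul]
    have h2 : ‖((κ x.2.1 * κ' x.2.2 : ℝ) : ℂ)‖ ≤ C * C' := by
      rw [Complex.norm_real, Real.norm_eq_abs, abs_mul]
      exact mul_le_mul (hC _) (hC' _) (abs_nonneg _) ((abs_nonneg _).trans (hC x.2.1))
    calc _ ≤ (C * C') * 1 := mul_le_mul h2 (hφ1 _) (norm_nonneg _) ((norm_nonneg _).trans h2)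
      _ = C * C' := mul_one _

/-- the first coordinate of the coupling is the field seen from `S` -/
theorem cpm_fst [IsMarkovKernel K'] (H : Half Q γ U W ξ K) :
    (cpm γ K K').map (fun x => x.2.1) = Q ∧ ∀ᵐ x ∂(cpm γ K K'), ξ x.2.1 = x.1 := by
  have := H.mker
  have hm : Measurable (fun x : (ℕ → ℝ) × (S × S') => (x.1, x.2.1)) := by fun_prop
  have h1 : (cpm γ K K').map (fun x => (x.1, x.2.1)) = Q.map (fun s => (ξ s, s)) := by
    rw [cpm_marg, H.dis]
  have hm2 : Measurable (fun s => (ξ s, s)) := H.mξ.prodMk measurable_id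
  refine ⟨?_, ?_⟩
  · have h2 : (cpm γ K K').map (fun x => x.2.1) =
        ((cpm γ K K').map (fun x => (x.1, x.2.1))).map Prod.snd := by
      rw [Measure.map_map measurable_snd hm]
      rfl
    rw [h2, h1, Measure.map_map measurable_snd hm2]
    exact Measure.map_id
  · have hset : MeasurableSet {p : (ℕ → ℝ) × S | ξ p.2 = p.1} :=
      measurableSet_eq_fun (H.mξ.comp measurable_snd) measurable_fst
    have h3 : ∀ᵐ p ∂((cpm γ K K').map (fun x => (x.1, x.2.1))), ξ p.2 = p.1 := by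
      rw [h1, ae_map_iff hm2.aemeasurable hset]
      exact Eventually.of_forall fun s => rfl
    exact (ae_map_iff hm.aemeasurable hset).1 h3

theorem cpm_snd [IsMarkovKernel K] (H : Half Q' γ U W' ξ' K') :
    (cpm γ K K').map (fun x => x.2.2) = Q' ∧ ∀ᵐ x ∂(cpm γ K K'), ξ' x.2.2 = x.1 := by
  have := H.mker
  have hm : Measurable (fun x : (ℕ → ℝ) × (S × S') => (x.1, x.2.2)) := by fun_prop
  have h1 : (cpm γ K K').map (fun x => (x.1, x.2.2)) = Q'.map (fun s => (ξ' s, s)) := by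
    rw [cpm_marg', H.dis]
  have hm2 : Measurable (fun s => (ξ' s, s)) := H.mξ.prodMk measurable_id
  refine ⟨?_, ?_⟩
  · have h2 : (cpm γ K K').map (fun x => x.2.2) =
        ((cpm γ K K').map (fun x => (x.1, x.2.2))).map Prod.snd := by
      rw [Measure.map_map measurable_snd hm]
      rfl
    rw [h2, h1, Measure.map_map measurable_snd hm2]
    exact Measure.map_id
  · have hset : MeasurableSet {p : (ℕ → ℝ) × S' | ξ' p.2 = p.1} :=
      measurableSet_eq_fun (H.mξ.comp measurable_snd) measurable_fst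
    have h3 : ∀ᵐ p ∂((cpm γ K K').map (fun x => (x.1, x.2.2))), ξ' p.2 = p.1 := by
      rw [h1, ae_map_iff hm2.aemeasurable hset]
      exact Eventually.of_forall fun s => rfl
    exact (ae_map_iff hm.aemeasurable hset).1 h3

/-- the field on the coupling -/
theorem cpm_field [IsMarkovKernel K'] (H : Half Q γ U W ξ K) (f : 𝓓) :
    ∀ᵐ x ∂(cpm γ K K'), W f x.2.1 = U f x.1 := by
  obtain ⟨h1, h2⟩ := cpm_fst (K' := K') H
  have h3 : ∀ᵐ s ∂((cpm γ K K').map (fun x => x.2.1)), W f s = U f (ξ s) := by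
    rw [h1]
    exact H.eq f
  have h4 := ae_of_ae_map (by fun_prop) h3
  filter_upwards [h2, h4] with x h5 h6
  rw [h6, h5]

theorem cpm_field' [IsMarkovKernel K] (H : Half Q' γ U W' ξ' K') (f : 𝓓) :
    ∀ᵐ x ∂(cpm γ K K'), W' f x.2.2 = U f x.1 := by
  obtain ⟨h1, h2⟩ := cpm_snd (K := K) H
  have h3 : ∀ᵐ s ∂((cpm γ K K').map (fun x => x.2.2)), W' f s = U f (ξ' s) := by
    rw [h1]
    exact H.eq f
  have h4 := ae_of_ae_map (by fun_prop) h3
  filter_upwards [h2, h4] with x h5 h6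
  rw [h6, h5]

end Couple

/-- **CPL-2.** Two standard Borel probability spaces carrying a Gaussian field over the same
separable Hilbert space can be coupled (conditionally independently given the field) in such a way
that the fields agree, and such that a product `κ(a) κ'(a')` depends on the field of `Vᗮ` only, if
both factors do. -/
theorem cpl2 {𝓓 : Type*} [NormedAddCommGroup 𝓓] [InnerProductSpace ℝ 𝓓] [CompleteSpace 𝓓]
    [TopologicalSpace.SeparableSpace 𝓓] {S S' : Type} [MeasurableSpace S] [StandardBorelSpace S]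
    [MeasurableSpace S'] [StandardBorelSpace S'] (Q : Measure S) [IsProbabilityMeasure Q]
    (Q' : Measure S') [IsProbabilityMeasure Q'] (W : 𝓓 →ₗᵢ[ℝ] Lp ℝ 2 Q)
    (W' : 𝓓 →ₗᵢ[ℝ] Lp ℝ 2 Q')
    (hW : ∀ f, ∫ s, Complex.exp (Complex.I * W f s) ∂Q = Real.exp (-‖f‖ ^ 2 / 2))
    (hW' : ∀ f, ∫ s, Complex.exp (Complex.I * W' f s) ∂Q' = Real.exp (-‖f‖ ^ 2 / 2)) :
    ∃ (X : Type) (_ : MeasurableSpace X) (μ : Measure X) (a : X → S) (a' : X → S'),
      IsProbabilityMeasure μ ∧ Measurable a ∧ Measurable a' ∧ μ.map a = Q ∧ μ.map a' = Q' ∧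
      (∀ f, ∀ᵐ x ∂μ, W f (a x) = W' f (a' x)) ∧
      ∀ V : Submodule ℝ 𝓓, IsClosed (V : Set 𝓓) → ∀ (κ : S → ℝ) (κ' : S' → ℝ),
        Measurable κ → (∃ C : ℝ, ∀ s, |κ s| ≤ C) → Measurable κ' → (∃ C : ℝ, ∀ s, |κ' s| ≤ C) →
        (∀ f ∈ V, ∀ g ∈ Vᗮ, ∫ s, (κ s : ℂ) * Complex.exp (Complex.I * W (g + f) s) ∂Q =
          Real.exp (-‖f‖ ^ 2 / 2) * ∫ s, (κ s : ℂ) * Complex.exp (Complex.I * W g s) ∂Q) →
        (∀ f ∈ V, ∀ g ∈ Vᗮ, ∫ s, (κ' s : ℂ) * Complex.exp (Complex.I * W' (g + f) s) ∂Q' =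
          Real.exp (-‖f‖ ^ 2 / 2) * ∫ s, (κ' s : ℂ) * Complex.exp (Complex.I * W' g s) ∂Q') →
        ∀ f ∈ V, ∀ g ∈ Vᗮ,
          ∫ x, ((κ (a x) * κ' (a' x) : ℝ) : ℂ) * Complex.exp (Complex.I * W (g + f) (a x)) ∂μ =
          Real.exp (-‖f‖ ^ 2 / 2) *
            ∫ x, ((κ (a x) * κ' (a' x) : ℝ) : ℂ) * Complex.exp (Complex.I * W g (a x)) ∂μ := by
  have hneQ : Nonempty S := Q.nonempty_of_neZero
  have hneQ' : Nonempty S' := Q'.nonempty_of_neZero
  set b : ℕ → 𝓓 := TopologicalSpace.denseSeq 𝓓 with hb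
  have hbd : DenseRange b := TopologicalSpace.denseRange_denseSeq 𝓓
  set ξ := seqOf W b with hξ
  set ξ' := seqOf W' b with hξ'
  have mξ : Measurable ξ := meas_seqOf W b
  have mξ' : Measurable ξ' := meas_seqOf W' b
  have hpγ : IsProbabilityMeasure (Q.map ξ) := Measure.isProbabilityMeasure_map mξ.aemeasurable
  have hpγ' : IsProbabilityMeasure (Q'.map ξ') :=
    Measure.isProbabilityMeasure_map mξ'.aemeasurable
  have hlaw : Q'.map ξ' = Q.map ξ := by
    refine ext_of_char fun w => ?_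
    rw [char_seqOf W hW b w, char_seqOf W' hW' b w]
  set γ : Measure (ℕ → ℝ) := Q.map ξ with hγ
  obtain ⟨U, hadd, hneg, hU, hU'⟩ := exists_U W W' b hbd rfl hlaw
  set K : Kernel (ℕ → ℝ) S := condDistrib id ξ Q with hK
  set K' : Kernel (ℕ → ℝ) S' := condDistrib id ξ' Q' with hK'
  have H : Half Q γ U W ξ K := by
    refine ⟨mξ, rfl, inferInstance, ?_, hU⟩
    exact compProd_map_condDistrib aemeasurable_id
  have H' : Half Q' γ U W' ξ' K' := by
    refine ⟨mξ', hlaw, inferInstance, ?_, hU'⟩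
    rw [← hlaw]
    exact compProd_map_condDistrib aemeasurable_id
  have hmU : ∀ f, Measurable (U f : (ℕ → ℝ) → ℝ) := fun f => (Lp.stronglyMeasurable _).measurable
  have hmE : ∀ f, Measurable (fun y => Complex.exp (Complex.I * U f y)) := by
    intro f
    have := hmU f
    fun_prop
  have hnE : ∀ f (y : ℕ → ℝ), ‖Complex.exp (Complex.I * U f y)‖ ≤ 1 := by
    intro f y
    rw [mul_comm]
    exact (Complex.norm_exp_ofReal_mul_I _).le
  -- the field on `(ℕ → ℝ, γ)`
  have G : GField γ (fun f => (U f : (ℕ → ℝ) → ℝ)) := by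
    refine ⟨hpγ, hmU, ?_, ?_, ?_, ?_⟩
    · intro f g
      rw [hadd]
      exact Lp.coeFn_add _ _
    · intro f
      rw [hneg]
      exact Lp.coeFn_neg _
    · intro f
      rw [← hW f, hγ, integral_map mξ.aemeasurable (hmE f).aestronglyMeasurable]
      refine integral_congr_ae ?_
      filter_upwards [hU f] with s hs
      rw [hs]
    · intro k hk h0
      refine zero_of_char hk fun w => ?_
      rw [← h0 (∑ n ∈ w.support, w n • b n)]
      refine integral_congr_ae ?_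
      have h1 : ∀ᵐ y ∂γ, (U (∑ n ∈ w.support, w n • b n) : (ℕ → ℝ) → ℝ) y =
          w.sum fun n t => t * y n := by
        rw [hγ, ae_map_iff mξ.aemeasurable]
        · filter_upwards [hU (∑ n ∈ w.support, w n • b n), W_sum W b w w.support] with s h2 h3
          rw [← h2, h3]
          rfl
        · refine measurableSet_eq_fun (hmU _) ?_
          simp only [Finsupp.sum]
          fun_prop
      filter_upwards [h1] with y hy
      rw [hy]
  refine ⟨(ℕ → ℝ) × (S × S'), inferInstance, cpm γ K K', fun x => x.2.1, fun x => x.2.2,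
    ?_, by fun_prop, by fun_prop, (cpm_fst H).1, (cpm_snd H').1, ?_, ?_⟩
  · unfold cpm
    infer_instance
  · intro f
    filter_upwards [cpm_field (K' := K') H f, cpm_field' (K := K) H' f] with x h1 h2
    rw [h1, h2]
  · intro V hV κ κ' mκ hC mκ' hC' hP hP'
    obtain ⟨C, hC⟩ := hC
    obtain ⟨C', hC'⟩ := hC'
    -- transfer to `γ`
    have key : ∀ f, ∫ s, (κ s : ℂ) * Complex.exp (Complex.I * W f s) ∂Q =
        ∫ y, ((∫ s, κ s ∂(K y) : ℝ) : ℂ) * Complex.exp (Complex.I * U f y) ∂γ := by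
      intro f
      rw [← H.integral mκ hC (hmE f) (hnE f)]
      refine integral_congr_ae ?_
      filter_upwards [hU f] with s hs
      rw [hs]
    have key' : ∀ f, ∫ s, (κ' s : ℂ) * Complex.exp (Complex.I * W' f s) ∂Q' =
        ∫ y, ((∫ s, κ' s ∂(K' y) : ℝ) : ℂ) * Complex.exp (Complex.I * U f y) ∂γ := by
      intro f
      rw [← H'.integral mκ' hC' (hmE f) (hnE f)]
      refine integral_congr_ae ?_
      filter_upwards [hU' f] with s hs
      rw [hs]
    have hk : Perp γ (fun f => (U f : (ℕ → ℝ) → ℝ)) V (fun y => ∫ s, κ s ∂(K y)) := by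
      intro f hf g hg
      have h := hP f hf g hg
      rw [key, key] at h
      exact h
    have hk' : Perp γ (fun f => (U f : (ℕ → ℝ) → ℝ)) V (fun y => ∫ s, κ' s ∂(K' y)) := by
      intro f hf g hg
      have h := hP' f hf g hg
      rw [key', key'] at h
      exact h
    have mk : Measurable (fun y => ∫ s, κ s ∂(K y)) :=
      (mκ.stronglyMeasurable.integral_kernel (κ := K)).measurable
    have mk' : Measurable (fun y => ∫ s, κ' s ∂(K' y)) :=
      (mκ'.stronglyMeasurable.integral_kernel (κ := K')).measurable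
    have bk : ∀ y, |∫ s, κ s ∂(K y)| ≤ C := by
      intro y
      have h1 := norm_integral_le_of_norm_le_const (μ := K y) (f := κ) (C := C)
        (Eventually.of_forall fun s => by simpa using hC s)
      simpa using h1
    have bk' : ∀ y, |∫ s, κ' s ∂(K' y)| ≤ C' := by
      intro y
      have h1 := norm_integral_le_of_norm_le_const (μ := K' y) (f := κ') (C := C')
        (Eventually.of_forall fun s => by simpa using hC' s)
      simpa using h1
    have hprod := perp_mul G hV mk bk hk mk' bk' hk'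
    have fin : ∀ f, ∫ x, ((κ x.2.1 * κ' x.2.2 : ℝ) : ℂ) *
        Complex.exp (Complex.I * W f x.2.1) ∂(cpm γ K K') =
        ∫ y, (((∫ s, κ s ∂(K y)) * (∫ s, κ' s ∂(K' y)) : ℝ) : ℂ) *
          Complex.exp (Complex.I * U f y) ∂γ := by
      intro f
      rw [← cpm_integral (γ := γ) (K := K) (K' := K') mκ hC mκ' hC' (hmE f) (hnE f)]
      refine integral_congr_ae ?_
      filter_upwards [cpm_field (K' := K') H f] with x hx
      rw [hx]
    intro f hf g hg
    rw [fin, fin]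
    exact hprod f hf g hg

end Vale.Agent.P155.U877
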